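import Mathlib

/-! Module K1 of P284 (row 4083), part b: combinatorics of alternating functions of indices. -/

namespace Vale.Agent.P284.H752

open Equiv Finset Matrix

noncomputable section

variable {n p : ℕ}

/-- `det (W (t i) (s j))` -/
def DW (W : Matrix (Fin n) (Fin n) ℂ) (s t : Fin p → Fin n) : ℂ :=
  (Matrix.of fun i j => W (t i) (s j)).det

/-- `∏ W (t i) (s i)` -/
def GW (W : Matrix (Fin n) (Fin n) ℂ) (s t : Fin p → Fin n) : ℂ := ∏ i, W (t i) (s i)

/-- alternating functions of `p` indices -/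
def IsAlt (f : (Fin p → Fin n) → ℂ) : Prop :=
  ∀ (s : Fin p → Fin n) (π : Perm (Fin p)), f (s ∘ π) = ((Perm.sign π : ℤ) : ℂ) * f s

theorem DW_transpose (W : Matrix (Fin n) (Fin n) ℂ) (s t : Fin p → Fin n) :
    DW Wᵀ t s = DW W s t := by
  unfold DW
  rw [← Matrix.det_transpose]
  rfl

theorem GW_transpose (W : Matrix (Fin n) (Fin n) ℂ) (s t : Fin p → Fin n) :
    GW Wᵀ t s = GW W s t := rfl

theorem sign_mul_self (π : Perm (Fin p)) :
    ((Perm.sign π : ℤ) : ℂ) * ((Perm.sign π : ℤ) : ℂ) = 1 := by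
  rw [← Int.cast_mul, ← Units.val_mul, Int.units_mul_self]; simp

theorem alt_right (W : Matrix (Fin n) (Fin n) ℂ) {f : (Fin p → Fin n) → ℂ} (hf : IsAlt f)
    (s : Fin p → Fin n) :
    ∑ t, f t * DW W s t = (p.factorial : ℂ) * ∑ t, f t * GW W s t := by
  unfold DW
  simp only [Matrix.det_apply', Finset.mul_sum]
  rw [Finset.sum_comm]
  have h : ∀ π : Perm (Fin p), ∑ t : Fin p → Fin n, f t * (((Perm.sign π : ℤ) : ℂ) *
      ∏ i, (Matrix.of fun i j => W (t i) (s j)) (π i) i) = ∑ t, f t * GW W s t := by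
    intro π
    rw [← Equiv.sum_comp (Equiv.arrowCongr π (Equiv.refl (Fin n)))]
    refine Finset.sum_congr rfl fun t _ => ?_
    have h1 : (Equiv.arrowCongr π (Equiv.refl (Fin n))) t = t ∘ (π⁻¹ : Perm (Fin p)) := rfl
    rw [h1, hf t π⁻¹, Perm.sign_inv]
    simp only [Matrix.of_apply, Function.comp_apply]
    have h2 : ∀ i, π⁻¹ (π i) = i := fun i => π.symm_apply_apply i
    simp only [h2]
    unfold GW
    linear_combination (f t * ∏ i, W (t i) (s i)) * sign_mul_self π
  simp only [h, Finset.sum_const, Finset.card_univ, Fintype.card_perm, Fintype.card_fin,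
    nsmul_eq_mul]
  rw [Finset.mul_sum]

theorem alt_left (W : Matrix (Fin n) (Fin n) ℂ) {f : (Fin p → Fin n) → ℂ} (hf : IsAlt f)
    (t : Fin p → Fin n) :
    ∑ s, f s * DW W s t = (p.factorial : ℂ) * ∑ s, f s * GW W s t := by
  have := alt_right Wᵀ hf t
  simpa only [DW_transpose, GW_transpose] using this

theorem alt_both (W : Matrix (Fin n) (Fin n) ℂ) {f g : (Fin p → Fin n) → ℂ} (hg : IsAlt g) :
    ∑ s, ∑ t, f s * g t * DW W s t = (p.factorial : ℂ) * ∑ s, ∑ t, f s * g t * GW W s t := by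
  rw [Finset.mul_sum]
  refine Finset.sum_congr rfl fun s _ => ?_
  simp only [mul_assoc]
  rw [← Finset.mul_sum, ← Finset.mul_sum, alt_right W hg]
  ring

theorem DW_succ (W : Matrix (Fin n) (Fin n) ℂ) (s t : Fin (p + 1) → Fin n) :
    DW W s t = ∑ i : Fin (p + 1), (-1) ^ (i : ℕ) * W (t i) (s 0) *
      DW W (fun j => s j.succ) (fun j => t (i.succAbove j)) := by
  unfold DW
  rw [Matrix.det_succ_column_zero]
  rfl

theorem GW_succ (W : Matrix (Fin n) (Fin n) ℂ) (s t : Fin (p + 1) → Fin n) :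
    GW W s t = W (t 0) (s 0) * GW W (fun j => s j.succ) (fun j => t j.succ) := by
  unfold GW
  rw [Fin.prod_univ_succ]

/-- splitting off the `i`-th index -/
theorem sum_insertNth (i : Fin (p + 1)) (F : (Fin (p + 1) → Fin n) → ℂ) :
    ∑ s, F s = ∑ a, ∑ s' : Fin p → Fin n, F (i.insertNth a s') := by
  rw [← Equiv.sum_comp (Fin.insertNthEquiv (fun _ => Fin n) i), Fintype.sum_prod_type]
  rfl

theorem sum_cons (F : (Fin (p + 1) → Fin n) → ℂ) :
    ∑ s, F s = ∑ a, ∑ s' : Fin p → Fin n, F (Fin.cons a s') := by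
  rw [sum_insertNth 0]
  simp only [Fin.insertNth_zero']

theorem GW_insertNth (W : Matrix (Fin n) (Fin n) ℂ) (i : Fin (p + 1)) (a : Fin n)
    (s' : Fin p → Fin n) (t : Fin (p + 1) → Fin n) :
    GW W (i.insertNth a s') t = W (t i) a * GW W s' (fun j => t (i.succAbove j)) := by
  unfold GW
  rw [Fin.prod_univ_succAbove _ i]
  simp

/-- the alternation of `D (s 0) (s ∘ succ)` -/
def XD (D : Fin n → (Fin p → Fin n) → ℂ) (s : Fin (p + 1) → Fin n) : ℂ :=
  ∑ i : Fin (p + 1), (-1) ^ (i : ℕ) * D (s i) (fun j => s (i.succAbove j))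

theorem f2_left (W : Matrix (Fin n) (Fin n) ℂ) (D : Fin n → (Fin p → Fin n) → ℂ)
    (hD : ∀ a, IsAlt (D a)) (t : Fin (p + 1) → Fin n) :
    ∑ s : Fin (p + 1) → Fin n, D (s 0) (fun j => s j.succ) * DW W s t =
      (p.factorial : ℂ) * ∑ s, XD D s * GW W s t := by
  have h1 : ∑ s : Fin (p + 1) → Fin n, D (s 0) (fun j => s j.succ) * DW W s t =
      ∑ i : Fin (p + 1), ∑ a, ∑ s' : Fin p → Fin n, (-1) ^ (i : ℕ) * W (t i) a *
        (D a s' * DW W s' (fun j => t (i.succAbove j))) := by
    simp only [DW_succ, Finset.mul_sum]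
    rw [Finset.sum_comm]
    refine Finset.sum_congr rfl fun i _ => ?_
    rw [sum_cons]
    refine Finset.sum_congr rfl fun a _ => Finset.sum_congr rfl fun s' _ => ?_
    simp only [Fin.cons_zero, Fin.cons_succ]
    ring
  have h2 : ∑ s, XD D s * GW W s t =
      ∑ i : Fin (p + 1), ∑ a, ∑ s' : Fin p → Fin n, (-1) ^ (i : ℕ) * W (t i) a *
        (D a s' * GW W s' (fun j => t (i.succAbove j))) := by
    simp only [XD, Finset.sum_mul]
    rw [Finset.sum_comm]
    refine Finset.sum_congr rfl fun i _ => ?_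
    rw [sum_insertNth i]
    refine Finset.sum_congr rfl fun a _ => Finset.sum_congr rfl fun s' _ => ?_
    rw [GW_insertNth]
    simp only [Fin.insertNth_apply_same, Fin.insertNth_apply_succAbove]
    ring
  rw [h1, h2, Finset.mul_sum]
  refine Finset.sum_congr rfl fun i _ => ?_
  rw [Finset.mul_sum]
  refine Finset.sum_congr rfl fun a _ => ?_
  rw [← Finset.mul_sum, ← Finset.mul_sum, alt_left W (hD a)]
  ring

theorem f2_right (W : Matrix (Fin n) (Fin n) ℂ) (D : Fin n → (Fin p → Fin n) → ℂ)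
    (hD : ∀ a, IsAlt (D a)) (s : Fin (p + 1) → Fin n) :
    ∑ t : Fin (p + 1) → Fin n, D (t 0) (fun j => t j.succ) * DW W s t =
      (p.factorial : ℂ) * ∑ t, XD D t * GW W s t := by
  have := f2_left Wᵀ D hD s
  simpa only [DW_transpose, GW_transpose] using this

/-- (F2) -/
theorem f2 (W : Matrix (Fin n) (Fin n) ℂ) (D E : Fin n → (Fin p → Fin n) → ℂ)
    (hD : ∀ a, IsAlt (D a)) (hE : ∀ a, IsAlt (E a)) (hX : IsAlt (XD D)) :
    ((p + 1).factorial : ℂ) * ∑ s : Fin (p + 1) → Fin n, ∑ t : Fin (p + 1) → Fin n,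
      (D (s 0) (fun j => s j.succ)) * (E (t 0) (fun j => t j.succ)) * DW W s t =
    (p.factorial : ℂ) ^ 2 * ∑ s, ∑ t, XD D s * XD E t * GW W s t := by
  have h1 : ∑ s : Fin (p + 1) → Fin n, ∑ t : Fin (p + 1) → Fin n,
      (D (s 0) (fun j => s j.succ)) * (E (t 0) (fun j => t j.succ)) * DW W s t =
      (p.factorial : ℂ) * ∑ t : Fin (p + 1) → Fin n, E (t 0) (fun j => t j.succ) *
        ∑ s, XD D s * GW W s t := by
    rw [Finset.sum_comm, Finset.mul_sum]
    refine Finset.sum_congr rfl fun t _ => ?_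
    have := f2_left W D hD t
    calc ∑ s : Fin (p + 1) → Fin n,
        (D (s 0) (fun j => s j.succ)) * (E (t 0) (fun j => t j.succ)) * DW W s t =
        (E (t 0) (fun j => t j.succ)) * ∑ s : Fin (p + 1) → Fin n,
          D (s 0) (fun j => s j.succ) * DW W s t := by
          rw [Finset.mul_sum]
          refine Finset.sum_congr rfl fun s _ => by ring
      _ = _ := by rw [this]; ring
  have h2 : ∀ t : Fin (p + 1) → Fin n, ((p + 1).factorial : ℂ) * ∑ s, XD D s * GW W s t =
      ∑ s, XD D s * DW W s t := fun t => (alt_left W hX t).symm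
  rw [h1]
  calc ((p + 1).factorial : ℂ) * ((p.factorial : ℂ) * ∑ t : Fin (p + 1) → Fin n,
      E (t 0) (fun j => t j.succ) * ∑ s, XD D s * GW W s t) =
      (p.factorial : ℂ) * ∑ t : Fin (p + 1) → Fin n, E (t 0) (fun j => t j.succ) *
        ∑ s, XD D s * DW W s t := by
        rw [← mul_assoc, mul_comm ((p + 1).factorial : ℂ), mul_assoc, Finset.mul_sum]
        congr 1
        refine Finset.sum_congr rfl fun t _ => ?_
        rw [← h2 t]
        ring
    _ = (p.factorial : ℂ) * ∑ s, XD D s * ∑ t : Fin (p + 1) → Fin n,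
          E (t 0) (fun j => t j.succ) * DW W s t := by
        congr 1
        simp only [Finset.mul_sum]
        rw [Finset.sum_comm]
        refine Finset.sum_congr rfl fun t _ => Finset.sum_congr rfl fun s _ => by ring
    _ = _ := by
        simp only [f2_right W E hE, Finset.mul_sum]
        refine Finset.sum_congr rfl fun t _ => Finset.sum_congr rfl fun s _ => by ring

/-- the contraction -/
def LW (W : Matrix (Fin n) (Fin n) ℂ) (T : Fin n → (Fin (p + 1) → Fin n) → ℂ)
    (s : Fin p → Fin n) : ℂ :=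
  ∑ a, ∑ b, W b a * T b (Fin.cons a s)

theorem f3_term (W : Matrix (Fin n) (Fin n) ℂ) (T : Fin n → (Fin (p + 1) → Fin n) → ℂ)
    (hT : ∀ b, IsAlt (T b)) (b : Fin n) (t : Fin p → Fin n) :
    ∑ s', T b s' * DW W s' (Fin.cons b t) =
      ((p + 1).factorial : ℂ) * ∑ a, ∑ s, T b (Fin.cons a s) * (W b a * GW W s t) := by
  rw [alt_left W (hT b), sum_cons]
  congr 1
  refine Finset.sum_congr rfl fun a _ => Finset.sum_congr rfl fun s _ => ?_
  rw [GW_succ]
  simp only [Fin.cons_zero, Fin.cons_succ]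

theorem f3 (W : Matrix (Fin n) (Fin n) ℂ) (T T' : Fin n → (Fin (p + 1) → Fin n) → ℂ)
    (hT : ∀ b, IsAlt (T b)) (hT' : ∀ b, IsAlt (T' b))
    (hI : ∀ a (j : Fin (p + 1)) c (t : Fin p → Fin n),
      T' a (j.insertNth c t) = (-1) ^ (j : ℕ) * T' a (Fin.cons c t)) :
    ∑ s : Fin (p + 2) → Fin n, ∑ t : Fin (p + 2) → Fin n,
      T (t 0) (fun j => s j.succ) * T' (s 0) (fun j => t j.succ) * DW W s t =
    ((p + 1).factorial : ℂ) * (∑ a, ∑ b, W b a *
        ∑ s, ∑ t, T b s * T' a t * GW W s t) -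
      ((p + 1 : ℕ) : ℂ) * ((p + 1).factorial : ℂ) * ∑ s, ∑ t, LW W T s *
        (∑ c, ∑ a, W c a * T' a (Fin.cons c t)) * GW W s t := by
  have h0 : ∑ s : Fin (p + 2) → Fin n, ∑ t : Fin (p + 2) → Fin n,
      T (t 0) (fun j => s j.succ) * T' (s 0) (fun j => t j.succ) * DW W s t =
      (∑ s : Fin (p + 2) → Fin n, ∑ t : Fin (p + 2) → Fin n,
        T (t 0) (fun j => s j.succ) * T' (s 0) (fun j => t j.succ) * (W (t 0) (s 0) *
          DW W (fun j => s j.succ) (fun j => t j.succ))) +
      ∑ i : Fin (p + 1), ∑ s : Fin (p + 2) → Fin n, ∑ t : Fin (p + 2) → Fin n,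
        T (t 0) (fun j => s j.succ) * T' (s 0) (fun j => t j.succ) *
          ((-1) ^ ((i : ℕ) + 1) * W (t i.succ) (s 0) *
          DW W (fun j => s j.succ) (fun j => t (i.succ.succAbove j))) := by
    have hc : ∑ i : Fin (p + 1), ∑ s : Fin (p + 2) → Fin n, ∑ t : Fin (p + 2) → Fin n,
        T (t 0) (fun j => s j.succ) * T' (s 0) (fun j => t j.succ) *
          ((-1) ^ ((i : ℕ) + 1) * W (t i.succ) (s 0) *
          DW W (fun j => s j.succ) (fun j => t (i.succ.succAbove j))) =
        ∑ s : Fin (p + 2) → Fin n, ∑ t : Fin (p + 2) → Fin n, ∑ i : Fin (p + 1),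
        T (t 0) (fun j => s j.succ) * T' (s 0) (fun j => t j.succ) *
          ((-1) ^ ((i : ℕ) + 1) * W (t i.succ) (s 0) *
          DW W (fun j => s j.succ) (fun j => t (i.succ.succAbove j))) := by
      rw [Finset.sum_comm]
      exact Finset.sum_congr rfl fun s _ => Finset.sum_comm
    rw [hc, ← Finset.sum_add_distrib]
    refine Finset.sum_congr rfl fun s _ => ?_
    rw [← Finset.sum_add_distrib]
    refine Finset.sum_congr rfl fun t _ => ?_
    rw [DW_succ, Fin.sum_univ_succ, mul_add, Finset.mul_sum]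
    simp only [Fin.val_zero, pow_zero, one_mul, Fin.val_succ, Fin.succAbove_zero]
  rw [h0]
  have hA : (∑ s : Fin (p + 2) → Fin n, ∑ t : Fin (p + 2) → Fin n,
        T (t 0) (fun j => s j.succ) * T' (s 0) (fun j => t j.succ) * (W (t 0) (s 0) *
          DW W (fun j => s j.succ) (fun j => t j.succ))) =
      ((p + 1).factorial : ℂ) * (∑ a, ∑ b, W b a *
        ∑ s, ∑ t, T b s * T' a t * GW W s t) := by
    simp only [sum_cons (p := p + 1), Fin.cons_zero, Fin.cons_succ]
    rw [Finset.mul_sum]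
    refine Finset.sum_congr rfl fun a _ => ?_
    rw [Finset.sum_comm, Finset.mul_sum]
    refine Finset.sum_congr rfl fun b _ => ?_
    have := alt_both W (f := T b) (hT' a)
    calc ∑ s : Fin (p + 1) → Fin n, ∑ t : Fin (p + 1) → Fin n,
        T b s * T' a t * (W b a * DW W s t) =
        W b a * ∑ s : Fin (p + 1) → Fin n, ∑ t : Fin (p + 1) → Fin n,
          T b s * T' a t * DW W s t := by
          simp only [Finset.mul_sum]
          refine Finset.sum_congr rfl fun s _ => Finset.sum_congr rfl fun t _ => by ring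
      _ = _ := by rw [this]; ring
  have hB : ∀ i : Fin (p + 1), ∑ s : Fin (p + 2) → Fin n, ∑ t : Fin (p + 2) → Fin n,
        T (t 0) (fun j => s j.succ) * T' (s 0) (fun j => t j.succ) *
          ((-1) ^ ((i : ℕ) + 1) * W (t i.succ) (s 0) *
          DW W (fun j => s j.succ) (fun j => t (i.succ.succAbove j))) =
      - (((p + 1).factorial : ℂ) * ∑ s, ∑ t, LW W T s *
        (∑ c, ∑ a, W c a * T' a (Fin.cons c t)) * GW W s t) := by
    intro i
    have e1 : ∀ (b : Fin n) (t' : Fin (p + 1) → Fin n),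
        (fun j => (Fin.cons b t' : Fin (p + 2) → Fin n) (i.succ.succAbove j)) =
          Fin.cons b (fun j => t' (i.succAbove j)) := by
      intro b t'
      funext j
      refine Fin.cases ?_ (fun k => ?_) j
      · simp
      · simp [Fin.succ_succAbove_succ]
    simp only [sum_cons (p := p + 1), Fin.cons_zero, Fin.cons_succ, e1]
    have e2 : ∀ (a b : Fin n) (s : Fin (p + 1) → Fin n),
        ∑ t' : Fin (p + 1) → Fin n, T b s * T' a t' * ((-1) ^ ((i : ℕ) + 1) * W (t' i) a *
          DW W s (Fin.cons b (fun j => t' (i.succAbove j)))) =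
        ∑ c, ∑ t : Fin p → Fin n, -(W c a * T' a (Fin.cons c t)) *
          (T b s * DW W s (Fin.cons b t)) := by
      intro a b s
      rw [sum_insertNth i]
      refine Finset.sum_congr rfl fun c _ => Finset.sum_congr rfl fun t _ => ?_
      rw [hI]
      simp only [Fin.insertNth_apply_same, Fin.insertNth_apply_succAbove]
      have h1 : ((-1 : ℂ)) ^ (i : ℕ) * (-1) ^ ((i : ℕ) + 1) = -1 := by
        rw [← pow_add]
        exact Odd.neg_one_pow ⟨(i : ℕ), by ring⟩
      linear_combination (W c a * T' a (Fin.cons c t) * T b s * DW W s (Fin.cons b t)) * h1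
    simp only [e2]
    -- now sum over `s` first
    have e3 : ∑ a, ∑ s : Fin (p + 1) → Fin n, ∑ b, ∑ c, ∑ t : Fin p → Fin n,
        -(W c a * T' a (Fin.cons c t)) * (T b s * DW W s (Fin.cons b t)) =
        ∑ a, ∑ c, ∑ t : Fin p → Fin n, -(W c a * T' a (Fin.cons c t)) *
          ∑ b, ∑ s : Fin (p + 1) → Fin n, (T b s * DW W s (Fin.cons b t)) := by
      refine Finset.sum_congr rfl fun a _ => ?_
      simp only [Finset.mul_sum]
      rw [Finset.sum_comm]
      calc ∑ b, ∑ s : Fin (p + 1) → Fin n, ∑ c, ∑ t : Fin p → Fin n,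
          -(W c a * T' a (Fin.cons c t)) * (T b s * DW W s (Fin.cons b t)) =
          ∑ b, ∑ c, ∑ t : Fin p → Fin n, ∑ s : Fin (p + 1) → Fin n,
          -(W c a * T' a (Fin.cons c t)) * (T b s * DW W s (Fin.cons b t)) := by
            refine Finset.sum_congr rfl fun b _ => ?_
            rw [Finset.sum_comm]
            exact Finset.sum_congr rfl fun c _ => Finset.sum_comm
        _ = _ := by
            rw [Finset.sum_comm]
            exact Finset.sum_congr rfl fun c _ => Finset.sum_comm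
    rw [e3]
    simp only [f3_term W T hT]
    -- compare
    have e4 : ∀ t : Fin p → Fin n, ∑ b, ((p + 1).factorial : ℂ) * ∑ a, ∑ s : Fin p → Fin n,
        T b (Fin.cons a s) * (W b a * GW W s t) =
        ((p + 1).factorial : ℂ) * ∑ s : Fin p → Fin n, LW W T s * GW W s t := by
      intro t
      rw [← Finset.mul_sum]
      congr 1
      unfold LW
      simp only [Finset.sum_mul]
      rw [Finset.sum_comm]
      calc ∑ a, ∑ b, ∑ s : Fin p → Fin n, T b (Fin.cons a s) * (W b a * GW W s t) =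
          ∑ a, ∑ s : Fin p → Fin n, ∑ b, T b (Fin.cons a s) * (W b a * GW W s t) :=
            Finset.sum_congr rfl fun a _ => Finset.sum_comm
        _ = _ := by
            rw [Finset.sum_comm]
            refine Finset.sum_congr rfl fun s _ => Finset.sum_congr rfl fun a _ =>
              Finset.sum_congr rfl fun b _ => by ring
    simp only [e4]
    have e5 : ∑ s : Fin p → Fin n, ∑ t : Fin p → Fin n, LW W T s *
        (∑ c, ∑ a, W c a * T' a (Fin.cons c t)) * GW W s t =
        ∑ t : Fin p → Fin n, (∑ c, ∑ a, W c a * T' a (Fin.cons c t)) *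
          ∑ s : Fin p → Fin n, LW W T s * GW W s t := by
      rw [Finset.sum_comm]
      refine Finset.sum_congr rfl fun t _ => ?_
      rw [Finset.mul_sum]
      refine Finset.sum_congr rfl fun s _ => by ring
    rw [e5]
    have e6 : ∀ R : (Fin p → Fin n) → ℂ, ∑ a, ∑ c, ∑ t : Fin p → Fin n,
        -(W c a * T' a (Fin.cons c t)) * (((p + 1).factorial : ℂ) * R t) =
        -(((p + 1).factorial : ℂ) * ∑ t : Fin p → Fin n,
          (∑ c, ∑ a, W c a * T' a (Fin.cons c t)) * R t) := by
      intro R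
      rw [Finset.sum_comm]
      simp only [Finset.sum_mul, Finset.mul_sum, ← Finset.sum_neg_distrib]
      calc ∑ c, ∑ a, ∑ t : Fin p → Fin n,
          -(W c a * T' a (Fin.cons c t)) * (((p + 1).factorial : ℂ) * R t) =
          ∑ c, ∑ t : Fin p → Fin n, ∑ a,
          -(W c a * T' a (Fin.cons c t)) * (((p + 1).factorial : ℂ) * R t) :=
            Finset.sum_congr rfl fun c _ => Finset.sum_comm
        _ = _ := by
            rw [Finset.sum_comm]
            refine Finset.sum_congr rfl fun t _ => Finset.sum_congr rfl fun c _ =>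
              Finset.sum_congr rfl fun a _ => by ring
    exact e6 _
  rw [hA]
  simp only [hB]
  rw [Finset.sum_const, Finset.card_univ, Fintype.card_fin, nsmul_eq_mul]
  ring

end

end Vale.Agent.P284.H752
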