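import Vale.Agent.P284.H752.K1a
import Vale.Agent.P284.H752.K1b
import Vale.Agent.P284.H608.K.Spec

/-! Module K1 of P284 (row 4083): the algebra of the `L²` engine, `K1Stmt`. -/

open scoped ContDiff Topology ComplexConjugate ComplexOrder ENNReal
open Finset Matrix Equiv

namespace Vale.Agent.P284.H752

open Vale.Agent.P272.K Vale.Agent.P284.H608.K

noncomputable section

variable {n p : ℕ}

/-- the positions `0, …, p-1` and the other ones -/
def eps (hp : p ≤ n) : Fin p ⊕ Fin (n - p) ≃ Fin n :=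
  finSumFinEquiv.trans (finCongr (Nat.add_sub_cancel' hp))

theorem eps_inl (hp : p ≤ n) (i : Fin p) : eps hp (Sum.inl i) = Fin.castLE hp i := by
  ext; simp [eps]

theorem eps_inr (hp : p ≤ n) (i : Fin (n - p)) : ((eps hp (Sum.inr i) : Fin n) : ℕ) = p + i := by
  simp [eps]

theorem Qp_eq_QG (hp : p ≤ n) (w : Matrix (Fin n) (Fin n) ℂ)
    (K : (Fin p → Fin n) → (Fin p → Fin n) → ℂ) :
    Qp hp w K = QG (eps hp) w K := by
  unfold Qp QG
  refine Finset.sum_congr rfl fun σ _ => Finset.sum_congr rfl fun τ _ => ?_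
  simp only [eps_inl]
  congr 1
  rw [Finset.prod_filter, ← Equiv.prod_comp (eps hp), Fintype.prod_sum_type]
  have h1 : ∀ i : Fin p, (if p ≤ ((eps hp (Sum.inl i) : Fin n) : ℕ) then
      w (σ (eps hp (Sum.inl i))) (τ (eps hp (Sum.inl i))) else 1) = 1 := by
    intro i
    rw [if_neg]
    rw [eps_inl]
    simp
  have h2 : ∀ i : Fin (n - p), (if p ≤ ((eps hp (Sum.inr i) : Fin n) : ℕ) then
      w (σ (eps hp (Sum.inr i))) (τ (eps hp (Sum.inr i))) else 1) =
      w (σ (eps hp (Sum.inr i))) (τ (eps hp (Sum.inr i))) := by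
    intro i
    rw [if_pos]
    rw [eps_inr]
    omega
  simp only [h1, h2, Finset.prod_const_one, one_mul]

theorem Qp_eq (hp : p ≤ n) {w : Matrix (Fin n) (Fin n) ℂ} (hw : w.PosDef)
    (K : (Fin p → Fin n) → (Fin p → Fin n) → ℂ) :
    Qp hp w K = w.det * (n - p).factorial * ∑ s, ∑ t, K s t * DW w⁻¹ s t := by
  rw [Qp_eq_QG, QG_eq _ _ ((Matrix.isUnit_iff_isUnit_det w).1 hw.isUnit)]
  simp only [Fintype.card_fin]
  rfl

/-! ### forms -/

theorem hn_def (w : Matrix (Fin n) (Fin n) ℂ) (A B : Af n p) :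
    hn w A B = ((p.factorial : ℂ))⁻¹ * ∑ s, ∑ t, ev A s * conj (ev B t) * GW w⁻¹ s t := rfl

theorem isAlt_ev (A : Af n p) : IsAlt (ev A) := by
  intro s π
  unfold ev
  have := A.toAlternatingMap.map_perm (fun i => (Pi.single (s i) 1 : Cm n)) π
  simp only [ContinuousAlternatingMap.coe_toAlternatingMap] at this
  rw [show (fun i => (Pi.single ((s ∘ π) i) 1 : Cm n)) =
    (fun i => (Pi.single (s i) 1 : Cm n)) ∘ π from rfl, this]
  rcases Int.units_eq_one_or (Perm.sign π) with h | h <;> simp [h]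

theorem IsAlt.conj {f : (Fin p → Fin n) → ℂ} (hf : IsAlt f) : IsAlt (fun s => conj (f s)) := by
  intro s π
  show (starRingEnd ℂ) (f (s ∘ π)) = _
  rw [hf s π, map_mul]
  simp

theorem ev_insertNth (A : Af n (p + 1)) (j : Fin (p + 1)) (c : Fin n) (t : Fin p → Fin n) :
    ev A (j.insertNth c t) = (-1) ^ (j : ℕ) * ev A (Fin.cons c t) := by
  unfold ev
  have h1 : ∀ j : Fin (p + 1), (fun i => (Pi.single ((j.insertNth c t : Fin (p + 1) → Fin n) i) 1 : Cm n)) =
      (j.insertNth (Pi.single c 1 : Cm n) (fun i => (Pi.single (t i) 1 : Cm n)) :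
        Fin (p + 1) → Cm n) := by
    intro j
    funext i
    refine Fin.succAboveCases j ?_ (fun k => ?_) i
    · simp
    · simp
  rw [h1, ContinuousAlternatingMap.map_insertNth]
  have h2 : (fun i => (Pi.single ((Fin.cons c t : Fin (p + 1) → Fin n) i) 1 : Cm n)) =
      Matrix.vecCons (Pi.single c 1 : Cm n) (fun i => (Pi.single (t i) 1 : Cm n)) := by
    funext i
    refine Fin.cases ?_ (fun k => ?_) i
    · simp
    · simp
  rw [h2]
  rcases neg_one_pow_eq_or ℤ (j : ℕ) with h | h <;> rcases neg_one_pow_eq_or ℂ (j : ℕ) with h' | h'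
  · simp
  · simp
  · simp
  · simp

theorem apply_eq (A : Af n p) (v : Fin p → Cm n) : A v = ∑ s, ev A s * ∏ i, v i (s i) := by
  have hv : v = fun i => ∑ j, v i j • (Pi.single j 1 : Cm n) := by
    funext i
    exact pi_eq_sum_univ' (v i)
  conv_lhs => rw [hv]
  have h1 := A.toContinuousMultilinearMap.map_sum
    (g := fun i j => v i j • (Pi.single j 1 : Cm n))
  have h2 : A (fun i => ∑ j, v i j • (Pi.single j 1 : Cm n)) =
      A.toContinuousMultilinearMap (fun i => ∑ j, v i j • (Pi.single j 1 : Cm n)) := rfl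
  rw [h2, h1]
  refine Finset.sum_congr rfl fun s _ => ?_
  rw [ContinuousMultilinearMap.map_smul_univ, smul_eq_mul, mul_comm]
  rfl

theorem ext_ev {A B : Af n p} (h : ∀ s, ev A s = ev B s) : A = B := by
  ext v
  rw [apply_eq, apply_eq B]
  simp only [h]

theorem exists_C {w : Matrix (Fin n) (Fin n) ℂ} (hw : w.PosDef) :
    ∃ C : Matrix (Fin n) (Fin n) ℂ, w⁻¹ = Cᴴ * C ∧ IsUnit C.det := by
  open scoped MatrixOrder in
  obtain ⟨C, hC⟩ := CStarAlgebra.nonneg_iff_eq_star_mul_self.mp hw.inv.posSemidef.nonneg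
  refine ⟨C, hC, ?_⟩
  have h1 : IsUnit (w⁻¹).det := (Matrix.isUnit_iff_isUnit_det _).1 hw.inv.isUnit
  rw [hC, Matrix.det_mul] at h1
  exact isUnit_of_mul_isUnit_right h1

theorem hn_eq {w C : Matrix (Fin n) (Fin n) ℂ} (hC : w⁻¹ = Cᴴ * C) (A B : Af n p) :
    hn w A B = ((p.factorial : ℂ))⁻¹ * ∑ u : Fin p → Fin n,
      A (fun i => C (u i)) * conj (B (fun i => C (u i))) := by
  rw [hn_def]
  congr 1
  have h1 : ∀ s t : Fin p → Fin n, GW w⁻¹ s t =
      ∑ u : Fin p → Fin n, ∏ i, (conj (C (u i) (t i)) * C (u i) (s i)) := by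
    intro s t
    unfold GW
    have : ∀ i, w⁻¹ (t i) (s i) = ∑ k, conj (C k (t i)) * C k (s i) := by
      intro i
      rw [hC, Matrix.mul_apply]
      rfl
    simp only [this]
    rw [Finset.prod_univ_sum, Fintype.piFinset_univ]
  simp only [h1, Finset.mul_sum]
  calc ∑ s : Fin p → Fin n, ∑ t : Fin p → Fin n, ∑ u : Fin p → Fin n,
      ev A s * conj (ev B t) * ∏ i, (conj (C (u i) (t i)) * C (u i) (s i)) =
      ∑ s : Fin p → Fin n, ∑ u : Fin p → Fin n, ∑ t : Fin p → Fin n,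
      ev A s * conj (ev B t) * ∏ i, (conj (C (u i) (t i)) * C (u i) (s i)) :=
        Finset.sum_congr rfl fun s _ => Finset.sum_comm
    _ = ∑ u : Fin p → Fin n, ∑ s : Fin p → Fin n, ∑ t : Fin p → Fin n,
      ev A s * conj (ev B t) * ∏ i, (conj (C (u i) (t i)) * C (u i) (s i)) := Finset.sum_comm
    _ = _ := by
        refine Finset.sum_congr rfl fun u _ => ?_
        rw [apply_eq A, apply_eq B, map_sum, Finset.sum_mul]
        refine Finset.sum_congr rfl fun s _ => ?_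
        rw [Finset.mul_sum]
        refine Finset.sum_congr rfl fun t _ => ?_
        rw [Finset.prod_mul_distrib, map_mul, map_prod]
        ring

/-! ### the statements -/

theorem inv_conj {w : Matrix (Fin n) (Fin n) ℂ} (hw : w.PosDef) (a b : Fin n) :
    conj (w⁻¹ a b) = w⁻¹ b a := by
  have h := hw.inv.isHermitian
  exact h.apply b a

theorem k1_conj_symm {w : Matrix (Fin n) (Fin n) ℂ} (hw : w.PosDef) (A B : Af n p) :
    hn w A B = conj (hn w B A) := by
  obtain ⟨C, hC, -⟩ := exists_C hw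
  rw [hn_eq hC, hn_eq hC, map_mul, map_sum]
  congr 1
  · simp
  · refine Finset.sum_congr rfl fun u _ => ?_
    rw [map_mul, Complex.conj_conj, mul_comm]

/-- sums against a positive semidefinite matrix -/
theorem sum_eq {w C : Matrix (Fin n) (Fin n) ℂ} (hC : w⁻¹ = Cᴴ * C) {γ G : Matrix (Fin n) (Fin n) ℂ}
    (hG : γ = Gᴴ * G) (ξ : Fin n → Af n p) :
    ∑ c, ∑ d, γ c d * hn w (ξ c) (ξ d) = ((p.factorial : ℂ))⁻¹ * ∑ u : Fin p → Fin n, ∑ k,
      ((‖∑ c, conj (G k c) * ξ c (fun i => C (u i))‖ ^ 2 : ℝ) : ℂ) := by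
  have h1 : ∀ c d, γ c d = ∑ k, conj (G k c) * G k d := by
    intro c d
    rw [hG, Matrix.mul_apply]
    rfl
  have h2 : ∀ (u : Fin p → Fin n) k,
      ((‖∑ c, conj (G k c) * ξ c (fun i => C (u i))‖ ^ 2 : ℝ) : ℂ) =
      ∑ c, ∑ d, conj (G k c) * G k d * (ξ c (fun i => C (u i)) * conj (ξ d (fun i => C (u i)))) := by
    intro u k
    rw [Complex.ofReal_pow, ← Complex.mul_conj', map_sum, Finset.sum_mul]
    refine Finset.sum_congr rfl fun c _ => ?_
    rw [Finset.mul_sum]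
    refine Finset.sum_congr rfl fun d _ => ?_
    rw [map_mul, Complex.conj_conj]
    ring
  simp only [h2, hn_eq hC, h1, Finset.mul_sum, Finset.sum_mul]
  calc ∑ c, ∑ d, ∑ u : Fin p → Fin n, ∑ k, conj (G k c) * G k d * ((p.factorial : ℂ)⁻¹ *
      (ξ c (fun i => C (u i)) * conj (ξ d (fun i => C (u i))))) =
      ∑ c, ∑ u : Fin p → Fin n, ∑ k, ∑ d, conj (G k c) * G k d * ((p.factorial : ℂ)⁻¹ *
      (ξ c (fun i => C (u i)) * conj (ξ d (fun i => C (u i))))) := by
        refine Finset.sum_congr rfl fun c _ => ?_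
        rw [Finset.sum_comm]
        exact Finset.sum_congr rfl fun u _ => Finset.sum_comm
    _ = ∑ u : Fin p → Fin n, ∑ k, ∑ c, ∑ d, conj (G k c) * G k d * ((p.factorial : ℂ)⁻¹ *
      (ξ c (fun i => C (u i)) * conj (ξ d (fun i => C (u i))))) := by
        rw [Finset.sum_comm]
        exact Finset.sum_congr rfl fun u _ => Finset.sum_comm
    _ = _ := by
        refine Finset.sum_congr rfl fun u _ => Finset.sum_congr rfl fun k _ =>
          Finset.sum_congr rfl fun c _ => Finset.sum_congr rfl fun d _ => by ring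

theorem sum_nonneg' {w : Matrix (Fin n) (Fin n) ℂ} (hw : w.PosDef)
    {γ : Matrix (Fin n) (Fin n) ℂ} (hγ : γ.PosSemidef) (ξ : Fin n → Af n p) :
    0 ≤ ∑ c, ∑ d, γ c d * hn w (ξ c) (ξ d) := by
  obtain ⟨C, hC, -⟩ := exists_C hw
  open scoped MatrixOrder in
  obtain ⟨G, hG⟩ := CStarAlgebra.nonneg_iff_eq_star_mul_self.mp hγ.nonneg
  rw [sum_eq hC hG]
  have : ((p.factorial : ℂ))⁻¹ * ∑ u : Fin p → Fin n, ∑ k,
      ((‖∑ c, conj (G k c) * ξ c (fun i => C (u i))‖ ^ 2 : ℝ) : ℂ) =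
      (((p.factorial : ℝ)⁻¹ * ∑ u : Fin p → Fin n, ∑ k,
        ‖∑ c, conj (G k c) * ξ c (fun i => C (u i))‖ ^ 2 : ℝ) : ℂ) := by
    push_cast
    rfl
  rw [this]
  exact_mod_cast (by positivity : (0 : ℝ) ≤ _)

theorem k1_pos {w : Matrix (Fin n) (Fin n) ℂ} (hw : w.PosDef) (A : Af n p) (hA : A ≠ 0) :
    0 < hn w A A := by
  obtain ⟨C, hC, hCu⟩ := exists_C hw
  rw [hn_eq hC]
  have h1 : ∃ u : Fin p → Fin n, A (fun i => C (u i)) ≠ 0 := by
    by_contra h
    push Not at h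
    apply hA
    -- the rows of `C` generate
    have h2 : ∀ s : Fin p → Fin n, ev A s = 0 := by
      intro s
      have hrow : ∀ a : Fin n, (Pi.single a 1 : Cm n) = ∑ k, C⁻¹ a k • (C k : Cm n) := by
        intro a
        funext b
        have := congrFun (congrFun (Matrix.nonsing_inv_mul C hCu) a) b
        rw [Matrix.mul_apply] at this
        simp only [Finset.sum_apply, Pi.smul_apply, smul_eq_mul]
        rw [this, Matrix.one_apply, Pi.single_apply]
        simp only [eq_comm]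
      unfold ev
      simp only [hrow]
      have h3 := A.toContinuousMultilinearMap.map_sum
        (g := fun (i : Fin p) (k : Fin n) => C⁻¹ (s i) k • (C k : Cm n))
      have h4 : A (fun i => ∑ k, C⁻¹ (s i) k • (C k : Cm n)) =
          A.toContinuousMultilinearMap (fun i => ∑ k, C⁻¹ (s i) k • (C k : Cm n)) := rfl
      rw [h4, h3]
      refine Finset.sum_eq_zero fun u _ => ?_
      rw [ContinuousMultilinearMap.map_smul_univ]
      have h5 : A.toContinuousMultilinearMap (fun i => (C (u i) : Cm n)) = 0 := h u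
      rw [h5, smul_zero]
    exact ext_ev fun s => by rw [h2]; rfl
  obtain ⟨u₀, hu₀⟩ := h1
  have : ((p.factorial : ℂ))⁻¹ * ∑ u : Fin p → Fin n,
      A (fun i => C (u i)) * conj (A (fun i => C (u i))) =
      (((p.factorial : ℝ)⁻¹ * ∑ u : Fin p → Fin n, ‖A (fun i => C (u i))‖ ^ 2 : ℝ) : ℂ) := by
    push_cast
    congr 1
    exact Finset.sum_congr rfl fun u _ => Complex.mul_conj' _
  rw [this]
  have h6 : 0 < (p.factorial : ℝ)⁻¹ * ∑ u : Fin p → Fin n, ‖A (fun i => C (u i))‖ ^ 2 := by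
    apply mul_pos (by positivity)
    exact Finset.sum_pos' (fun u _ => by positivity) ⟨u₀, Finset.mem_univ _, by
      have := norm_pos_iff.2 hu₀
      positivity⟩
  exact_mod_cast h6

theorem k1_pull {w' : Matrix (Fin n) (Fin n) ℂ} (hw : w'.PosDef) (L : Cm n →L[ℂ] Cm n)
    (hL : Function.Bijective L) (A B : Af n p) :
    hn ((LinearMap.toMatrix' (L : Cm n →ₗ[ℂ] Cm n)).transpose * w' *
      (LinearMap.toMatrix' (L : Cm n →ₗ[ℂ] Cm n)).map (starRingEnd ℂ))
      (A.compContinuousLinearMap L) (B.compContinuousLinearMap L) = hn w' A B := by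
  obtain ⟨C, hC, hCu⟩ := exists_C hw
  set Λ := LinearMap.toMatrix' (L : Cm n →ₗ[ℂ] Cm n) with hΛ
  have hΛu : IsUnit Λ := by
    let e : Cm n ≃ₗ[ℂ] Cm n := LinearEquiv.ofBijective (L : Cm n →ₗ[ℂ] Cm n) hL
    have h : Λ * LinearMap.toMatrix' (e.symm : Cm n →ₗ[ℂ] Cm n) = 1 := by
      rw [hΛ, ← LinearMap.toMatrix'_comp]
      have : (L : Cm n →ₗ[ℂ] Cm n) ∘ₗ (e.symm : Cm n →ₗ[ℂ] Cm n) = LinearMap.id :=
        LinearMap.ext fun v => e.apply_symm_apply v
      rw [this, LinearMap.toMatrix'_id]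
    rw [Matrix.isUnit_iff_isUnit_det]
    have h2 := congrArg Matrix.det h
    rw [Matrix.det_mul, Matrix.det_one] at h2
    exact IsUnit.of_mul_eq_one _ h2
  have hC' : (Λᵀ * w' * Λ.map (starRingEnd ℂ))⁻¹ = (C * (Λᵀ)⁻¹)ᴴ * (C * (Λᵀ)⁻¹) := by
    have h1 : Λ.map (starRingEnd ℂ) = (Λᵀ)ᴴ := by
      ext a b
      rfl
    rw [h1, Matrix.mul_inv_rev, Matrix.mul_inv_rev, hC, Matrix.conjTranspose_mul,
      ← Matrix.conjTranspose_nonsing_inv, Matrix.mul_assoc, Matrix.mul_assoc]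
  rw [hn_eq hC, hn_eq hC']
  congr 1
  refine Finset.sum_congr rfl fun u _ => ?_
  have h1 : ∀ k, L ((C * (Λᵀ)⁻¹) k) = C k := by
    intro k
    have h2 : L ((C * (Λᵀ)⁻¹) k) = Λ *ᵥ ((C * (Λᵀ)⁻¹) k) :=
      (LinearMap.toMatrix'_mulVec (L : Cm n →ₗ[ℂ] Cm n) ((C * (Λᵀ)⁻¹) k)).symm
    have h3 : IsUnit (Λᵀ).det := by
      rw [Matrix.det_transpose]
      exact (Matrix.isUnit_iff_isUnit_det _).1 hΛu
    rw [h2, ← Matrix.vecMul_transpose, ← Matrix.mul_apply_eq_vecMul, Matrix.mul_assoc,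
      Matrix.nonsing_inv_mul _ h3, Matrix.mul_one]
  simp only [ContinuousAlternatingMap.compContinuousLinearMap_apply, Function.comp_def, h1]

/-! ### F1 - F4 -/

theorem k1_F1 (hp : p ≤ n) {w : Matrix (Fin n) (Fin n) ℂ} (hw : w.PosDef) (A B : Af n p) :
    Qp hp w (fun s t => ev A s * conj (ev B t)) =
      (p.factorial : ℂ) ^ 2 * (n - p).factorial * w.det * hn w A B := by
  rw [Qp_eq hp hw, alt_both w⁻¹ (isAlt_ev B).conj, hn_def]
  have h : (p.factorial : ℂ) ≠ 0 := by exact_mod_cast p.factorial_ne_zero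
  field_simp

theorem ev_alt (D : Fin n → Af n p) (s : Fin (p + 1) → Fin n) :
    ev (ContinuousAlternatingMap.alternatizeUncurryFin
      (∑ a, (ContinuousLinearMap.proj (R := ℂ) (φ := fun _ : Fin n => ℂ) a).smulRight (D a))) s =
      XD (fun a => ev (D a)) s := by
  unfold ev XD
  rw [ContinuousAlternatingMap.alternatizeUncurryFin_apply]
  refine Finset.sum_congr rfl fun i _ => ?_
  have h1 : (∑ a, (ContinuousLinearMap.proj (R := ℂ) (φ := fun _ : Fin n => ℂ) a).smulRight (D a))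
      (Pi.single (s i) 1 : Cm n) = D (s i) := by
    rw [_root_.sum_apply]
    simp only [ContinuousLinearMap.smulRight_apply, ContinuousLinearMap.proj_apply]
    rw [Finset.sum_eq_single (s i)]
    · simp
    · intro b _ hb
      rw [Pi.single_eq_of_ne hb, zero_smul]
    · simp
  rw [h1]
  rcases neg_one_pow_eq_or ℤ (i : ℕ) with h | h <;> rcases neg_one_pow_eq_or ℂ (i : ℕ) with h' | h'
  all_goals
    simp
    rfl

theorem k1_F2 (hp : p + 1 ≤ n) {w : Matrix (Fin n) (Fin n) ℂ} (hw : w.PosDef)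
    (D E : Fin n → Af n p) :
    Qp hp w (fun s t => ev (D (s 0)) (fun i => s i.succ) * conj (ev (E (t 0)) fun i => t i.succ)) =
      (p.factorial : ℂ) ^ 2 * (n - p - 1).factorial * w.det *
        hn w (ContinuousAlternatingMap.alternatizeUncurryFin
            (∑ a, (ContinuousLinearMap.proj (R := ℂ) (φ := fun _ : Fin n => ℂ) a).smulRight (D a)))
          (ContinuousAlternatingMap.alternatizeUncurryFin
            (∑ a, (ContinuousLinearMap.proj (R := ℂ) (φ := fun _ : Fin n => ℂ) a).smulRight (E a)))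
      := by
  rw [Qp_eq hp hw, hn_def]
  have hX : IsAlt (XD fun a => ev (D a)) := by
    have := isAlt_ev (ContinuousAlternatingMap.alternatizeUncurryFin
      (∑ a, (ContinuousLinearMap.proj (R := ℂ) (φ := fun _ : Fin n => ℂ) a).smulRight (D a)))
    have h2 := funext (ev_alt D)
    rwa [h2] at this
  have h := f2 w⁻¹ (fun a => ev (D a)) (fun a s => conj (ev (E a) s)) (fun a => isAlt_ev _)
    (fun a => (isAlt_ev _).conj) hX
  have h2 : ∀ t, conj (XD (fun a => ev (E a)) t) = XD (fun a s => conj (ev (E a) s)) t := by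
    intro t
    unfold XD
    rw [map_sum]
    refine Finset.sum_congr rfl fun i _ => ?_
    rw [map_mul, map_pow, map_neg, map_one]
  simp only [ev_alt, h2]
  have h3 : ((p + 1).factorial : ℂ) ≠ 0 := by exact_mod_cast (p + 1).factorial_ne_zero
  rw [Nat.sub_sub]
  field_simp
  linear_combination w.det * h

theorem ev_Lam (w : Matrix (Fin n) (Fin n) ℂ) (T : Fin n → Af n (p + 1)) (s : Fin p → Fin n) :
    ev (Lam w T) s = LW w⁻¹ (fun b => ev (T b)) s := by
  unfold Lam LW ev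
  simp only [ContinuousAlternatingMap.sum_apply, ContinuousAlternatingMap.smul_apply,
    smul_eq_mul]
  refine Finset.sum_congr rfl fun a _ => Finset.sum_congr rfl fun b _ => ?_
  congr 1
  rw [ContinuousAlternatingMap.curryLeft_apply_apply]
  congr 1
  funext i
  refine Fin.cases ?_ (fun k => ?_) i
  · simp
  · simp

theorem conj_ev_Lam {w : Matrix (Fin n) (Fin n) ℂ} (hw : w.PosDef) (T : Fin n → Af n (p + 1))
    (t : Fin p → Fin n) :
    conj (ev (Lam w T) t) = ∑ c, ∑ a, w⁻¹ c a * conj (ev (T a) (Fin.cons c t)) := by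
  rw [ev_Lam]
  unfold LW
  simp only [map_sum, map_mul, inv_conj hw]

theorem f3_hn {w : Matrix (Fin n) (Fin n) ℂ} (hw : w.PosDef) (T T' : Fin n → Af n (p + 1)) :
    ∑ s : Fin (p + 2) → Fin n, ∑ t : Fin (p + 2) → Fin n,
      ev (T (t 0)) (fun j => s j.succ) * conj (ev (T' (s 0)) (fun j => t j.succ)) *
        DW w⁻¹ s t =
      ((p + 1).factorial : ℂ) ^ 2 *
        ((∑ b, ∑ b', w⁻¹ b b' * hn w (T b) (T' b')) - hn w (Lam w T) (Lam w T')) := by
  have h := f3 w⁻¹ (fun b => ev (T b)) (fun a t => conj (ev (T' a) t)) (fun b => isAlt_ev _)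
    (fun b => (isAlt_ev _).conj) (fun a j c t => by
      rw [ev_insertNth, map_mul, map_pow, map_neg, map_one])
  rw [h]
  have h1 : ∀ b b', hn w (T b) (T' b') = (((p + 1).factorial : ℂ))⁻¹ *
      ∑ s, ∑ t, ev (T b) s * conj (ev (T' b') t) * GW w⁻¹ s t := fun b b' => rfl
  have h2 : hn w (Lam w T) (Lam w T') = ((p.factorial : ℂ))⁻¹ *
      ∑ s, ∑ t, LW w⁻¹ (fun b => ev (T b)) s *
        (∑ c, ∑ a, w⁻¹ c a * conj (ev (T' a) (Fin.cons c t))) * GW w⁻¹ s t := by
    rw [hn_def]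
    simp only [ev_Lam w T, conj_ev_Lam hw T']
  have h3 : ∑ b, ∑ b', w⁻¹ b b' * hn w (T b) (T' b') = (((p + 1).factorial : ℂ))⁻¹ *
      ∑ a, ∑ b, w⁻¹ b a * ∑ s, ∑ t, ev (T b) s * conj (ev (T' a) t) * GW w⁻¹ s t := by
    rw [Finset.sum_comm, Finset.mul_sum]
    refine Finset.sum_congr rfl fun a _ => ?_
    rw [Finset.mul_sum]
    refine Finset.sum_congr rfl fun b _ => ?_
    rw [h1]
    ring
  rw [h3, h2]
  have h4 : ((p + 1).factorial : ℂ) ≠ 0 := by exact_mod_cast (p + 1).factorial_ne_zero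
  have h5 : (p.factorial : ℂ) ≠ 0 := by exact_mod_cast p.factorial_ne_zero
  have h6 : ((p + 1).factorial : ℂ) = ((p + 1 : ℕ) : ℂ) * (p.factorial : ℂ) := by
    rw [Nat.factorial_succ]; push_cast; ring
  field_simp
  rw [h6]
  ring

theorem k1_F3 (hp : p + 2 ≤ n) {w : Matrix (Fin n) (Fin n) ℂ} (hw : w.PosDef)
    (T T' : Fin n → Af n (p + 1)) :
    Qp hp w (fun s t => ev (T (t 0)) (fun i => s i.succ) * conj (ev (T' (s 0)) fun i => t i.succ)) =
      ((p + 1).factorial : ℂ) ^ 2 * (n - (p + 1) - 1).factorial * w.det *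
        ((∑ b, ∑ b', w⁻¹ b b' * hn w (T b) (T' b')) - hn w (Lam w T) (Lam w T')) := by
  rw [Qp_eq hp hw, f3_hn hw, Nat.sub_sub]
  ring

theorem k1_F3z (hp : 1 ≤ n) {w : Matrix (Fin n) (Fin n) ℂ} (hw : w.PosDef)
    (T T' : Fin n → Af n 0) :
    Qp hp w (fun s t => ev (T (t 0)) (fun i => s i.succ) * conj (ev (T' (s 0)) fun i => t i.succ)) =
      (n - 1).factorial * w.det * ∑ b, ∑ b', w⁻¹ b b' * hn w (T b) (T' b') := by
  rw [Qp_eq hp hw]
  have h1 : ∀ b b', hn w (T b) (T' b') = ev (T b) Fin.elim0 * conj (ev (T' b') Fin.elim0) := by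
    intro b b'
    unfold hn
    rw [Fintype.sum_unique, Fintype.sum_unique]
    simp only [Nat.factorial_zero, Nat.cast_one, inv_one, one_mul, Finset.univ_eq_empty,
      Finset.prod_empty, mul_one]
    congr 3
  simp only [h1]
  rw [mul_comm (w.det)]
  congr 1
  have h2 : ∀ s t : Fin 1 → Fin n, ev (T (t 0)) (fun i : Fin 0 => s i.succ) *
      conj (ev (T' (s 0)) fun i : Fin 0 => t i.succ) * DW w⁻¹ s t =
      w⁻¹ (t 0) (s 0) * (ev (T (t 0)) Fin.elim0 * conj (ev (T' (s 0)) Fin.elim0)) := by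
    intro s t
    have h3 : DW w⁻¹ s t = w⁻¹ (t 0) (s 0) := by
      unfold DW
      rw [Matrix.det_fin_one]
      rfl
    rw [h3, Subsingleton.elim (fun i : Fin 0 => s i.succ) Fin.elim0,
      Subsingleton.elim (fun i : Fin 0 => t i.succ) Fin.elim0]
    ring
  have h4 : ∀ G : Fin n → Fin n → ℂ, ∑ s : Fin 1 → Fin n, ∑ t : Fin 1 → Fin n, G (s 0) (t 0) =
      ∑ a, ∑ b, G a b := by
    intro G
    rw [← Equiv.sum_comp (Equiv.funUnique (Fin 1) (Fin n)).symm]
    refine Finset.sum_congr rfl fun a _ => ?_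
    rw [← Equiv.sum_comp (Equiv.funUnique (Fin 1) (Fin n)).symm]
    rfl
  calc ∑ s : Fin 1 → Fin n, ∑ t : Fin 1 → Fin n, ev (T (t 0)) (fun i : Fin 0 => s i.succ) *
      conj (ev (T' (s 0)) fun i : Fin 0 => t i.succ) * DW w⁻¹ s t =
      ∑ s : Fin 1 → Fin n, ∑ t : Fin 1 → Fin n,
      w⁻¹ (t 0) (s 0) * (ev (T (t 0)) Fin.elim0 * conj (ev (T' (s 0)) Fin.elim0)) :=
        Finset.sum_congr rfl fun s _ => Finset.sum_congr rfl fun t _ => h2 s t
    _ = ∑ a, ∑ b, w⁻¹ b a * (ev (T b) Fin.elim0 * conj (ev (T' a) Fin.elim0)) :=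
        h4 fun a b => w⁻¹ b a * (ev (T b) Fin.elim0 * conj (ev (T' a) Fin.elim0))
    _ = _ := Finset.sum_comm

theorem k1_F3t (r : ℕ) {w : Matrix (Fin (r + 1)) (Fin (r + 1)) ℂ} (hw : w.PosDef)
    (T T' : Fin (r + 1) → Af (r + 1) (r + 1)) :
    ∑ b, ∑ b', w⁻¹ b b' * hn w (T b) (T' b') = hn w (Lam w T) (Lam w T') := by
  have h := f3_hn hw T T'
  have h0 : ∀ s t : Fin (r + 2) → Fin (r + 1), DW w⁻¹ s t = 0 := by
    intro s t
    obtain ⟨i, j, hij, hs⟩ := Fintype.exists_ne_map_eq_of_card_lt s (by simp)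
    unfold DW
    exact Matrix.det_zero_of_column_eq hij fun k => by simp [hs]
  simp only [h0, mul_zero, Finset.sum_const_zero] at h
  have h4 : ((r + 1).factorial : ℂ) ^ 2 ≠ 0 :=
    pow_ne_zero _ (by exact_mod_cast (r + 1).factorial_ne_zero)
  have h5 := (mul_eq_zero.1 h.symm).resolve_left h4
  exact sub_eq_zero.1 h5

theorem k1_F4 (hp : p + 1 ≤ n) {w : Matrix (Fin n) (Fin n) ℂ} (hw : w.PosDef)
    (τ : Af n p) (T : Fin n → Af n (p + 1)) :
    Qp hp w (fun s t => ev τ (fun i => s i.succ) * conj (ev (T (s 0)) t)) =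
      (p.factorial : ℂ) * (p + 1).factorial * (n - (p + 1)).factorial * w.det *
        hn w τ (Lam w T) := by
  rw [Qp_eq hp hw]
  have h1 : ∑ s : Fin (p + 1) → Fin n, ∑ t : Fin (p + 1) → Fin n,
      ev τ (fun i => s i.succ) * conj (ev (T (s 0)) t) * DW w⁻¹ s t =
      ((p + 1).factorial : ℂ) * ∑ s : Fin (p + 1) → Fin n, ∑ t : Fin (p + 1) → Fin n,
      ev τ (fun i => s i.succ) * conj (ev (T (s 0)) t) * GW w⁻¹ s t := by
    rw [Finset.mul_sum]
    refine Finset.sum_congr rfl fun s _ => ?_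
    simp only [mul_assoc]
    rw [← Finset.mul_sum, ← Finset.mul_sum, alt_right w⁻¹ (isAlt_ev (T (s 0))).conj]
    ring
  have h2 : ∑ s : Fin (p + 1) → Fin n, ∑ t : Fin (p + 1) → Fin n,
      ev τ (fun i => s i.succ) * conj (ev (T (s 0)) t) * GW w⁻¹ s t =
      ∑ s : Fin p → Fin n, ∑ t : Fin p → Fin n, ev τ s * conj (ev (Lam w T) t) * GW w⁻¹ s t := by
    simp only [sum_cons (p := p), conj_ev_Lam hw, GW_succ, Fin.cons_zero, Fin.cons_succ]
    rw [Finset.sum_comm]
    refine Finset.sum_congr rfl fun s _ => ?_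
    calc ∑ a, ∑ c, ∑ t : Fin p → Fin n, ev τ s * conj (ev (T a) (Fin.cons c t)) *
        (w⁻¹ c a * GW w⁻¹ s t) =
        ∑ a, ∑ t : Fin p → Fin n, ∑ c, ev τ s * conj (ev (T a) (Fin.cons c t)) *
        (w⁻¹ c a * GW w⁻¹ s t) := Finset.sum_congr rfl fun a _ => Finset.sum_comm
      _ = _ := by
        rw [Finset.sum_comm]
        refine Finset.sum_congr rfl fun t _ => ?_
        rw [Finset.sum_comm]
        simp only [Finset.mul_sum, Finset.sum_mul]
        refine Finset.sum_congr rfl fun c _ => Finset.sum_congr rfl fun a _ => by ring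
  rw [h1, h2, hn_def]
  have h5 : (p.factorial : ℂ) ≠ 0 := by exact_mod_cast p.factorial_ne_zero
  field_simp

theorem k1_mono {w β β' : Matrix (Fin n) (Fin n) ℂ} (hw : w.PosDef) (hβ : (β' - β).PosSemidef)
    (η : Af n p) : Ad w β η ≤ Ad w β' η := by
  have h := sum_nonneg' hw hβ (fun c => wdz c η)
  have h2 : Ad w β' η - Ad w β η =
      ∑ c, ∑ d, (β' - β) c d * hn w (wdz c η) (wdz d η) := by
    unfold Ad
    rw [← Finset.sum_sub_distrib]
    refine Finset.sum_congr rfl fun c _ => ?_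
    rw [← Finset.sum_sub_distrib]
    refine Finset.sum_congr rfl fun d _ => ?_
    rw [Matrix.sub_apply]
    ring
  rw [← h2] at h
  exact sub_nonneg.1 h

theorem k1_Tn_nonneg {w : Matrix (Fin n) (Fin n) ℂ} (hw : w.PosDef) (T : Fin n → Af n p) :
    0 ≤ Tn w T := sum_nonneg' hw hw.inv.posSemidef T

/-- **K1** -/
theorem k1Stmt : K1Stmt where
  conj_symm := fun _ _ _ hw A B => k1_conj_symm hw A B
  pos := fun _ _ _ hw A hA => k1_pos hw A hA
  pull := fun _ _ _ L hw hL A B => k1_pull hw L hL A B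
  F1 := fun _ _ hp _ hw A B => k1_F1 hp hw A B
  F2 := fun _ _ hp _ hw D E => k1_F2 hp hw D E
  F3 := fun _ _ hp _ hw T T' => k1_F3 hp hw T T'
  F3z := fun _ hp _ hw T T' => k1_F3z hp hw T T'
  F3t := fun r _ hw T T' => k1_F3t r hw T T'
  F4 := fun _ _ hp _ hw τ T => k1_F4 hp hw τ T
  mono := fun _ _ _ _ _ hw hβ η => k1_mono hw hβ η
  Tn_nonneg := fun _ _ _ hw T => k1_Tn_nonneg hw T

end

end Vale.Agent.P284.H752
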