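import Mathlib

/-! Module K1 of P284 (row 4083), part a: Jacobi's complementary minors in the form of the
`Q`-functional. -/

namespace Vale.Agent.P284.H752

open Equiv Finset Matrix

noncomputable section

variable {N ι κ : Type*} [Fintype N] [DecidableEq N] [Fintype ι] [DecidableEq ι]
  [Fintype κ] [DecidableEq κ]

/-- Number of permutations with prescribed values on the image of `inl`. -/
theorem card_perm_extending (ε : ι ⊕ κ ≃ N) (J : ι → N) (hJ : Function.Injective J) :
    Fintype.card {τ : Perm N // ∀ i, τ (ε (Sum.inl i)) = J i} = (Fintype.card κ).factorial := by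
  obtain ⟨τ0, h0⟩ := Equiv.Perm.exists_extending_pair (fun i => ε (Sum.inl i)) J
    (fun a b h => by simpa using h) hJ
  have h0' : ∀ i, τ0 (ε (Sum.inl i)) = J i := h0
  let P : N → Prop := fun x => ∃ k, ε (Sum.inr k) = x
  have hP : ∀ x, ¬ P x → ∃ i, ε (Sum.inl i) = x := by
    intro x hx
    rcases h : ε.symm x with i | k
    · exact ⟨i, by rw [← h, ε.apply_symm_apply]⟩
    · exact absurd ⟨k, by rw [← h, ε.apply_symm_apply]⟩ hx
  have hP' : ∀ i, ¬ P (ε (Sum.inl i)) := by
    rintro i ⟨k, hk⟩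
    simp at hk
  have : DecidablePred P := Classical.decPred P
  let e1 : {f : Perm N // ∀ a, ¬ P a → f a = a} ≃
      {τ : Perm N // ∀ i, τ (ε (Sum.inl i)) = J i} :=
    { toFun := fun f => ⟨τ0 * f.1, fun i => by
        rw [Perm.mul_apply, f.2 _ (hP' i), h0']⟩
      invFun := fun τ => ⟨τ0⁻¹ * τ.1, fun a ha => by
        obtain ⟨i, rfl⟩ := hP a ha
        rw [Perm.mul_apply, τ.2, ← h0' i]; exact τ0.symm_apply_apply _⟩
      left_inv := fun f => by ext; simp
      right_inv := fun τ => by ext; simp }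
  let e2 : κ ≃ Subtype P :=
    Equiv.ofBijective (fun k => ⟨ε (Sum.inr k), k, rfl⟩)
      ⟨fun a b h => by simpa using h, fun ⟨x, k, hk⟩ => ⟨k, by simp [hk]⟩⟩
  rw [← Fintype.card_congr e1, ← Fintype.card_congr (Perm.subtypeEquivSubtypePerm P),
    Fintype.card_perm, Fintype.card_congr e2]

/-- The `Q`-functional in general position. -/
def QG (ε : ι ⊕ κ ≃ N) (w : Matrix N N ℂ) (𝒦 : (ι → N) → (ι → N) → ℂ) : ℂ :=
  ∑ σ : Perm N, ∑ τ : Perm N, (Perm.sign σ : ℂ) * (Perm.sign τ : ℂ) *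
    𝒦 (fun i => σ (ε (Sum.inl i))) (fun i => τ (ε (Sum.inl i))) *
    ∏ k : κ, w (σ (ε (Sum.inr k))) (τ (ε (Sum.inr k)))

/-- inner determinant -/
theorem inner_det (ε : ι ⊕ κ ≃ N) (w : Matrix N N ℂ) (hw : IsUnit w.det) (I J : ι → N)
    (τ : Perm N) (hτ : ∀ i, τ (ε (Sum.inl i)) = J i) :
    ∑ σ : Perm N, (Perm.sign σ : ℂ) * (if (fun i => σ (ε (Sum.inl i))) = I then 1 else 0) *
      ∏ k : κ, w (σ (ε (Sum.inr k))) (τ (ε (Sum.inr k))) =
    (Perm.sign τ : ℂ) * w.det * (Matrix.of fun i j => w⁻¹ (J i) (I j)).det := by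
  -- the two matrices with columns indexed by `ι ⊕ κ`
  let W : N → ι ⊕ κ → ℂ := fun a =>
    Sum.elim (fun i => if a = I i then 1 else 0) (fun k => w a (τ (ε (Sum.inr k))))
  let M : N → ι ⊕ κ → ℂ := fun a =>
    Sum.elim (fun i => w⁻¹ a (I i)) (fun k => if a = τ (ε (Sum.inr k)) then 1 else 0)
  have h1 : (Matrix.of fun a b => W a (ε.symm b)) = w * (Matrix.of fun a b => M a (ε.symm b)) := by
    ext a b
    rw [Matrix.mul_apply]
    simp only [Matrix.of_apply]
    rcases ε.symm b with i | k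
    · simp only [W, M, Sum.elim_inl]
      have h := congrFun (congrFun (Matrix.mul_nonsing_inv w hw) a) (I i)
      rw [Matrix.mul_apply] at h
      rw [h, Matrix.one_apply]
    · simp [W, M]
  have h2 : (Matrix.of fun a b => W a (ε.symm b)).det =
      ∑ σ : Perm N, (Perm.sign σ : ℂ) * (if (fun i => σ (ε (Sum.inl i))) = I then 1 else 0) *
      ∏ k : κ, w (σ (ε (Sum.inr k))) (τ (ε (Sum.inr k))) := by
    rw [Matrix.det_apply']
    refine Finset.sum_congr rfl fun σ _ => ?_
    rw [← Equiv.prod_comp ε, Fintype.prod_sum_type]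
    simp only [Matrix.of_apply, Equiv.symm_apply_apply, W, Sum.elim_inl, Sum.elim_inr]
    rw [mul_assoc]
    congr 2
    rw [Finset.prod_ite_zero]
    simp only [Finset.prod_const_one]
    congr 1
    simp [funext_iff]
  have h3 : (Matrix.of fun a b => M a (ε.symm b)).det =
      (Perm.sign τ : ℂ) * (Matrix.of fun i j => w⁻¹ (J i) (I j)).det := by
    have h4 := Matrix.det_permute τ (Matrix.of fun a b => M a (ε.symm b))
    have h5 : ((Matrix.of fun a b => M a (ε.symm b)).submatrix τ id).det =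
        (Matrix.of fun i j => w⁻¹ (J i) (I j)).det := by
      rw [← Matrix.det_submatrix_equiv_self ε]
      have h6 : (((Matrix.of fun a b => M a (ε.symm b)).submatrix τ id).submatrix ε ε) =
          Matrix.fromBlocks (Matrix.of fun i j => w⁻¹ (J i) (I j)) 0
            (Matrix.of fun k j => w⁻¹ (τ (ε (Sum.inr k))) (I j)) 1 := by
        ext x y
        rcases x with i | k <;> rcases y with j | l
        · simp [M, hτ]
        · simp [M]
        · simp [M]
        · simp [M, Matrix.one_apply]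
      rw [h6, Matrix.det_fromBlocks_zero₁₂, Matrix.det_one, mul_one]
    rw [h5] at h4
    rw [h4, ← mul_assoc]
    have h7 : ((Perm.sign τ : ℤ) : ℂ) * ((Perm.sign τ : ℤ) : ℂ) = 1 := by
      rw [← Int.cast_mul, ← Units.val_mul, Int.units_mul_self]; simp
    rw [h7, one_mul]
  rw [← h2, h1, Matrix.det_mul, h3]
  ring

theorem swap3 (f : (ι → N) → (ι → N) → Perm N → ℂ) :
    ∑ I, ∑ J, ∑ τ, f I J τ = ∑ τ, ∑ I, ∑ J, f I J τ :=
  calc ∑ I, ∑ J, ∑ τ, f I J τ = ∑ I, ∑ τ, ∑ J, f I J τ :=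
        Finset.sum_congr rfl fun _ _ => Finset.sum_comm
    _ = _ := Finset.sum_comm

/-- **Jacobi**: the `Q`-functional in terms of the inverse matrix. -/
theorem QG_eq (ε : ι ⊕ κ ≃ N) (w : Matrix N N ℂ) (hw : IsUnit w.det)
    (𝒦 : (ι → N) → (ι → N) → ℂ) :
    QG ε w 𝒦 = w.det * (Fintype.card κ).factorial *
      ∑ I : ι → N, ∑ J : ι → N, 𝒦 I J * (Matrix.of fun i j => w⁻¹ (J i) (I j)).det := by
  -- expand the kernel
  have h1 : QG ε w 𝒦 = ∑ I : ι → N, ∑ J : ι → N, 𝒦 I J *
      ∑ τ : Perm N, (if (fun i => τ (ε (Sum.inl i))) = J then 1 else 0) * ((Perm.sign τ : ℂ) *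
        ∑ σ : Perm N, (Perm.sign σ : ℂ) * (if (fun i => σ (ε (Sum.inl i))) = I then 1 else 0) *
          ∏ k : κ, w (σ (ε (Sum.inr k))) (τ (ε (Sum.inr k)))) := by
    unfold QG
    simp only [Finset.mul_sum]
    rw [Finset.sum_comm, swap3]
    refine Finset.sum_congr rfl fun τ _ => ?_
    rw [swap3]
    refine Finset.sum_congr rfl fun σ _ => ?_
    have e2 : ∀ I J : ι → N, 𝒦 I J *
      ((if (fun i => τ (ε (Sum.inl i))) = J then 1 else 0) * ((Perm.sign τ : ℂ) *
        ((Perm.sign σ : ℂ) * (if (fun i => σ (ε (Sum.inl i))) = I then 1 else 0) *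
          ∏ k : κ, w (σ (ε (Sum.inr k))) (τ (ε (Sum.inr k)))))) =
        (if (fun i => τ (ε (Sum.inl i))) = J then
          (if (fun i => σ (ε (Sum.inl i))) = I then 𝒦 I J * ((Perm.sign τ : ℂ) *
        ((Perm.sign σ : ℂ) *
          ∏ k : κ, w (σ (ε (Sum.inr k))) (τ (ε (Sum.inr k))))) else 0) else 0) := by
      intro I J
      split_ifs <;> simp
    simp only [e2]
    simp only [Finset.sum_ite_eq, Finset.mem_univ, if_true]
    ring
  rw [h1, Finset.mul_sum]
  refine Finset.sum_congr rfl fun I _ => ?_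
  rw [Finset.mul_sum]
  refine Finset.sum_congr rfl fun J _ => ?_
  have h2 : ∀ τ : Perm N, (if (fun i => τ (ε (Sum.inl i))) = J then 1 else 0) *
      ((Perm.sign τ : ℂ) *
        ∑ σ : Perm N, (Perm.sign σ : ℂ) * (if (fun i => σ (ε (Sum.inl i))) = I then 1 else 0) *
          ∏ k : κ, w (σ (ε (Sum.inr k))) (τ (ε (Sum.inr k)))) =
      (if ∀ i, τ (ε (Sum.inl i)) = J i then 1 else 0) *
        (w.det * (Matrix.of fun i j => w⁻¹ (J i) (I j)).det) := by
    intro τ
    have h7 : ((Perm.sign τ : ℤ) : ℂ) * ((Perm.sign τ : ℤ) : ℂ) = 1 := by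
      rw [← Int.cast_mul, ← Units.val_mul, Int.units_mul_self]; simp
    by_cases h : ∀ i, τ (ε (Sum.inl i)) = J i
    · rw [if_pos h, if_pos (funext h), inner_det ε w hw I J τ h, one_mul, one_mul]
      linear_combination (w.det * (Matrix.of fun i j => w⁻¹ (J i) (I j)).det) * h7
    · rw [if_neg h, if_neg (fun h' => h (fun i => congrFun h' i)), zero_mul, zero_mul]
  simp only [h2]
  rw [← Finset.sum_mul]
  by_cases hJ : Function.Injective J
  · have h3 : (∑ τ : Perm N, (if ∀ i, τ (ε (Sum.inl i)) = J i then (1 : ℂ) else 0)) =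
        (Fintype.card κ).factorial := by
      rw [← card_perm_extending ε J hJ, Finset.sum_boole, Fintype.card_subtype]
    rw [h3]
    ring
  · have h4 : (Matrix.of fun i j => w⁻¹ (J i) (I j)).det = 0 := by
      unfold Function.Injective at hJ
      push Not at hJ
      obtain ⟨a, b, hab, hne⟩ := hJ
      exact Matrix.det_zero_of_row_eq hne (by ext j; simp [hab])
    rw [h4]
    ring

end

end Vale.Agent.P284.H752
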