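import Mathlib

/-! Module K6 of P284 (row 4083): the abstract Hilbert space lemma.
`D0 → D1 → D2 → D3` is a complex of test forms (only linear maps `j` into Hilbert spaces are used:
the `L²` classes), `S` are the formal adjoints, test forms are dense in the graph norm in the two
middle degrees.  If `s₀` is weakly closed and `|⟨∂τ, s₀⟩|² ≤ C₀ (‖∂τ‖² + ‖Sτ‖²)` for all test `τ` in
degree 1, then `s₀` is within `√C₀` of an `s` which is a limit of test forms `x k` with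
`∂ x k → 0`, `S x k → 0`. -/

namespace Vale.Agent.P284.H752

open Filter Topology

noncomputable section

variable {D0 D1 D2 D3 H0 H1 H2 H3 : Type*}
  [AddCommGroup D0] [Module ℂ D0] [AddCommGroup D1] [Module ℂ D1]
  [AddCommGroup D2] [Module ℂ D2] [AddCommGroup D3] [Module ℂ D3]
  [NormedAddCommGroup H0] [InnerProductSpace ℂ H0]
  [NormedAddCommGroup H1] [InnerProductSpace ℂ H1] [CompleteSpace H1]
  [NormedAddCommGroup H2] [InnerProductSpace ℂ H2] [CompleteSpace H2]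
  [NormedAddCommGroup H3] [InnerProductSpace ℂ H3]

/-- Density of the test space `D` (with `d : D → D'`, `S : D → D''`) in the graph norm: every `x`
with weak images `d x = y`, `S x = z` is a limit of test elements in the graph norm.  `dm`, `Sp` are
the operators `D'' → D` and `D' → D` against which one tests. -/
def GraphDense {D D' D'' H H' H'' : Type*}
    [NormedAddCommGroup H] [InnerProductSpace ℂ H]
    [NormedAddCommGroup H'] [InnerProductSpace ℂ H']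
    [NormedAddCommGroup H''] [InnerProductSpace ℂ H'']
    (j : D → H) (j' : D' → H') (j'' : D'' → H'')
    (d : D → D') (S : D → D'') (dm : D'' → D) (Sp : D' → D) : Prop :=
  ∀ (x : H) (y : H') (z : H''),
    (∀ η : D', inner ℂ x (j (Sp η)) = inner ℂ y (j' η)) →
    (∀ τ : D'', inner ℂ x (j (dm τ)) = inner ℂ z (j'' τ)) →
    ∃ u : ℕ → D, Tendsto (fun k => j (u k)) atTop (𝓝 x) ∧
      Tendsto (fun k => j' (d (u k))) atTop (𝓝 y) ∧
      Tendsto (fun k => j'' (S (u k))) atTop (𝓝 z)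

/-- An inner product with a fixed vector vanishes on the closure of a range if it vanishes on the
range. -/
theorem inner_eq_zero_of_mem_closure {D H : Type*} [AddCommGroup D] [Module ℂ D]
    [NormedAddCommGroup H] [InnerProductSpace ℂ H] (f : D →ₗ[ℂ] H) (v : H)
    (h : ∀ x, inner ℂ (f x) v = 0) {y : H} (hy : y ∈ (LinearMap.range f).topologicalClosure) :
    inner ℂ y v = 0 := by
  have hc : IsClosed {y : H | inner ℂ y v = 0} :=
    isClosed_eq (continuous_id.inner continuous_const) continuous_const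
  have hs : ((LinearMap.range f : Submodule ℂ H) : Set H) ⊆ {y : H | inner ℂ y v = 0} := by
    rintro _ ⟨x, rfl⟩
    exact h x
  exact (closure_minimal hs hc) hy

theorem abstract_l2 (j0 : D0 →ₗ[ℂ] H0) (j1 : D1 →ₗ[ℂ] H1) (j2 : D2 →ₗ[ℂ] H2) (j3 : D3 →ₗ[ℂ] H3)
    (d0 : D0 →ₗ[ℂ] D1) (d1 : D1 →ₗ[ℂ] D2) (d2 : D2 →ₗ[ℂ] D3)
    (S0 : D1 →ₗ[ℂ] D0) (S1 : D2 →ₗ[ℂ] D1) (S2 : D3 →ₗ[ℂ] D2)
    (had1 : ∀ τ η, inner ℂ (j2 (d1 τ)) (j2 η) = inner ℂ (j1 τ) (j1 (S1 η)))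
    (had2 : ∀ τ η, inner ℂ (j3 (d2 τ)) (j3 η) = inner ℂ (j2 τ) (j2 (S2 η)))
    (hdd0 : ∀ τ, j2 (d1 (d0 τ)) = 0) (hdd1 : ∀ τ, j3 (d2 (d1 τ)) = 0)
    (hD1 : GraphDense j1 j2 j0 d1 S0 d0 S1) (hD2 : GraphDense j2 j3 j1 d2 S1 d1 S2)
    (s₀ : H2) (hs₀ : ∀ η : D3, inner ℂ s₀ (j2 (S2 η)) = 0) {C₀ : ℝ} (hC₀ : 0 ≤ C₀)
    (hC : ∀ τ : D1, ‖(inner ℂ (j2 (d1 τ)) s₀ : ℂ)‖ ^ 2 ≤
      C₀ * (‖j2 (d1 τ)‖ ^ 2 + ‖j0 (S0 τ)‖ ^ 2)) :
    ∃ s : H2, ‖s - s₀‖ ^ 2 ≤ C₀ ∧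
      (∀ τ : D1, inner ℂ s (j2 (d1 τ)) = 0) ∧ (∀ η : D3, inner ℂ s (j2 (S2 η)) = 0) ∧
      ∃ x : ℕ → D2, Tendsto (fun k => j2 (x k)) atTop (𝓝 s) ∧
        Tendsto (fun k => j3 (d2 (x k))) atTop (𝓝 0) ∧
        Tendsto (fun k => j1 (S1 (x k))) atTop (𝓝 0) := by
  classical
  set B : Submodule ℂ H2 := (LinearMap.range (j2 ∘ₗ d1)).topologicalClosure with hB
  have : CompleteSpace B :=
    (LinearMap.range (j2 ∘ₗ d1)).isClosed_topologicalClosure.completeSpace_coe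
  set B0 : Submodule ℂ H1 := (LinearMap.range (j1 ∘ₗ d0)).topologicalClosure with hB0
  have : CompleteSpace B0 :=
    (LinearMap.range (j1 ∘ₗ d0)).isClosed_topologicalClosure.completeSpace_coe
  -- the inequality without the adjoint term
  have key : ∀ τ : D1, ‖(inner ℂ (j2 (d1 τ)) s₀ : ℂ)‖ ^ 2 ≤ C₀ * ‖j2 (d1 τ)‖ ^ 2 := by
    intro τ
    set t : H1 := j1 τ - (B0.starProjection (j1 τ)) with ht
    have hmem : B0.starProjection (j1 τ) ∈ B0 := Submodule.starProjection_apply_mem _ _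
    have h1 : ∀ η : D2, inner ℂ t (j1 (S1 η)) = inner ℂ (j2 (d1 τ)) (j2 η) := by
      intro η
      have h0 : inner ℂ (B0.starProjection (j1 τ)) (j1 (S1 η)) = (0 : ℂ) := by
        refine inner_eq_zero_of_mem_closure (j1 ∘ₗ d0) _ (fun x => ?_) hmem
        have := had1 (d0 x) η
        rw [hdd0, inner_zero_left] at this
        simpa using this.symm
      rw [ht, inner_sub_left, h0, sub_zero, had1]
    have h2 : ∀ σ : D0, inner ℂ t (j1 (d0 σ)) = inner ℂ (0 : H0) (j0 σ) := by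
      intro σ
      rw [inner_zero_left]
      have hb : (j1 (d0 σ)) ∈ B0 :=
        Submodule.le_topologicalClosure _ ⟨σ, rfl⟩
      have := Submodule.starProjection_inner_eq_zero (K := B0) (j1 τ) (j1 (d0 σ)) hb
      rw [ht]
      exact this
    obtain ⟨u, hu1, hu2, hu3⟩ := hD1 t (j2 (d1 τ)) 0 h1 h2
    have hlim1 : Tendsto (fun k => ‖(inner ℂ (j2 (d1 (u k))) s₀ : ℂ)‖ ^ 2) atTop
        (𝓝 (‖(inner ℂ (j2 (d1 τ)) s₀ : ℂ)‖ ^ 2)) :=
      ((hu2.inner tendsto_const_nhds).norm).pow 2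
    have hlim2 : Tendsto (fun k => C₀ * (‖j2 (d1 (u k))‖ ^ 2 + ‖j0 (S0 (u k))‖ ^ 2)) atTop
        (𝓝 (C₀ * (‖j2 (d1 τ)‖ ^ 2 + ‖(0 : H0)‖ ^ 2))) :=
      ((hu2.norm.pow 2).add (hu3.norm.pow 2)).const_mul C₀
    have := le_of_tendsto_of_tendsto' hlim1 hlim2 (fun k => hC (u k))
    simpa using this
  -- the same on the closure
  have key2 : ∀ r ∈ B, ‖(inner ℂ r s₀ : ℂ)‖ ^ 2 ≤ C₀ * ‖r‖ ^ 2 := by
    intro r hr
    have hc : IsClosed {r : H2 | ‖(inner ℂ r s₀ : ℂ)‖ ^ 2 ≤ C₀ * ‖r‖ ^ 2} :=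
      isClosed_le (((continuous_id.inner continuous_const).norm).pow 2)
        (continuous_const.mul (continuous_norm.pow 2))
    have hs : ((LinearMap.range (j2 ∘ₗ d1) : Submodule ℂ H2) : Set H2) ⊆
        {r : H2 | ‖(inner ℂ r s₀ : ℂ)‖ ^ 2 ≤ C₀ * ‖r‖ ^ 2} := by
      rintro _ ⟨x, rfl⟩
      exact key x
    exact (closure_minimal hs hc) hr
  set r : H2 := B.starProjection s₀ with hr
  have hrB : r ∈ B := Submodule.starProjection_apply_mem _ _
  have hrs : inner ℂ (s₀ - r) r = (0 : ℂ) :=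
    Submodule.starProjection_inner_eq_zero (K := B) s₀ r hrB
  have hC0 : ‖r‖ ^ 2 ≤ C₀ := by
    have h1 : inner ℂ r s₀ = (inner ℂ r r : ℂ) := by
      have h3 : inner ℂ r (s₀ - r) = (0 : ℂ) := by
        rw [← inner_conj_symm, hrs, map_zero]
      rw [inner_sub_right, sub_eq_zero] at h3
      exact h3
    have h2 := key2 r hrB
    rw [h1, inner_self_eq_norm_sq_to_K] at h2
    have h4 : ‖((‖r‖ : ℂ)) ^ 2‖ = ‖r‖ ^ 2 := by
      rw [norm_pow, Complex.norm_real, norm_norm]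
    have h2' : (‖r‖ ^ 2) ^ 2 ≤ C₀ * ‖r‖ ^ 2 := by
      have h5 : ‖((‖r‖ : ℂ)) ^ 2‖ ^ 2 ≤ C₀ * ‖r‖ ^ 2 := h2
      rwa [h4] at h5
    by_cases h0 : ‖r‖ ^ 2 = 0
    · rw [h0]
      exact hC₀
    · have hpos : 0 < ‖r‖ ^ 2 := lt_of_le_of_ne (by positivity) (Ne.symm h0)
      have : ‖r‖ ^ 2 * ‖r‖ ^ 2 ≤ C₀ * ‖r‖ ^ 2 := by rw [← pow_two]; exact h2'
      exact le_of_mul_le_mul_right this hpos
  have hS : ∀ τ : D1, inner ℂ (s₀ - r) (j2 (d1 τ)) = (0 : ℂ) := fun τ =>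
    Submodule.starProjection_inner_eq_zero (K := B) s₀ _
      (Submodule.le_topologicalClosure _ ⟨τ, rfl⟩)
  have hd : ∀ η : D3, inner ℂ (s₀ - r) (j2 (S2 η)) = (0 : ℂ) := by
    intro η
    have h0 : inner ℂ r (j2 (S2 η)) = (0 : ℂ) := by
      refine inner_eq_zero_of_mem_closure (j2 ∘ₗ d1) _ (fun x => ?_) hrB
      have h1 := had2 (d1 x) η
      rw [hdd1, inner_zero_left] at h1
      simpa using h1.symm
    rw [inner_sub_left, hs₀, h0, sub_zero]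
  refine ⟨s₀ - r, ?_, hS, hd, ?_⟩
  · rw [sub_sub_cancel_left, norm_neg]
    exact hC0
  · exact hD2 (s₀ - r) 0 0 (fun η => by rw [hd, inner_zero_left])
      (fun τ => by rw [hS, inner_zero_left])

end

end Vale.Agent.P284.H752
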